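import Crest.Agent.N221.Hm.K_Mg
import Crest.Agent.N221.Br.Alg_Mg

-- ▼ part N221/Hm/All
section

/-! Row 221, block Hm: assembly modulo the three algebra lemmas `JS`, `MS`, `ES`. -/

set_option autoImplicit false

namespace Crest.Agent.N221.Hm

open Hu

theorem hm_of_alg (hJ : JS) (hM : MS) (hE : ES) : HmS :=
  hm_of (alS logS purS hE hJ) (y0S hJ) tau1S (stabS log3S tau1S tau2S)
    (kS logS hM lyS tau1S tau2S)

end Crest.Agent.N221.Hm
end

-- ▼ part N221/Hm/Fin

/-! Row 221, block HU-MAIN: the closed statement `HmS`. -/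

namespace Crest.Agent.N221.Hm

/-- The main hull statement, with no hypothesis. -/
theorem hmS : HmS := hm_of_alg Hu.jS Hu.mS Hu.eS

end Crest.Agent.N221.Hm
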