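import Crest.Agent.N221.Hm.Stm
import Crest.Agent.N221.Hu.Log

-- ▼ part N221/Hm/Kit
section

/-! Row 221, block Hm: common lemmas (shrinking, equivariance of the envelope, adjoints). -/

set_option autoImplicit false
set_option linter.unusedSectionVars false
set_option linter.unusedVariables false
set_option maxSynthPendingDepth 3

open Set Filter Topology Module
open scoped ContDiff

noncomputable section

namespace Crest.Agent.N221.Hm

open Hu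

variable {E F : Type} [NormedAddCommGroup E] [NormedSpace ℝ E] [FiniteDimensional ℝ E]
  [NormedAddCommGroup F] [NormedSpace ℝ F] [FiniteDimensional ℝ F]
  {om : E →L[ℝ] E →L[ℝ] ℝ} {W O O' O'' : Set E} {π e : E → E →L[ℝ] E} {P : Set (Mv E)}
  {h : E → Submodule ℝ (E →L[ℝ] E)} {Y : Bool → E → Submodule ℝ E} {M : E → Submodule ℝ F}
  {p : Bool → E → E →L[ℝ] E}

/-! ### shrinking -/

lemma Sub.trans (a : Sub O'' O') (b : Sub O' O) : Sub O'' O := ⟨a.opn, a.ne, a.sub.trans b.sub⟩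

lemma Sub.refl (a : Sub O W) : Sub O O := ⟨a.opn, a.ne, Subset.rfl⟩

/-- a property that holds near `z` holds on a smaller open set containing `z` -/
lemma Sub.of_ev {q : E → Prop} (hO : IsOpen O) {z : E} (hz : z ∈ O) (hq : ∀ᶠ y in 𝓝 z, q y) :
    ∃ O', Sub O' O ∧ z ∈ O' ∧ ∀ y ∈ O', q y := by
  obtain ⟨V, a, b, c⟩ := eventually_nhds_iff.1 (hq.and (hO.mem_nhds hz))
  exact ⟨V, ⟨b, ⟨z, c⟩, fun y hy => (a y hy).2⟩, c, fun y hy => (a y hy).1⟩

lemma Sm.mono (a : Sm M O) (b : O' ⊆ O) : Sm M O' := by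
  obtain ⟨p, h1, h2⟩ := a
  exact ⟨p, h1.mono b, fun z hz => h2 z (b hz)⟩

lemma Sm.congr {M' : E → Submodule ℝ F} (a : Sm M O) (b : ∀ z ∈ O, M' z = M z) : Sm M' O := by
  obtain ⟨p, h1, h2⟩ := a
  exact ⟨p, h1, fun z hz => b z hz ▸ h2 z hz⟩

lemma Sm.rank (a : Sm M O) (hO : IsOpen O) {z : E} (hz : z ∈ O) :
    ∀ᶠ y in 𝓝 z, finrank ℝ (M y) = finrank ℝ (M z) := (a.smAt hO hz).rank

/-- the same for a pair of families -/
lemma sm2_of_cut {M : Bool → E → Submodule ℝ F} (hO : IsOpen O) (hne : O.Nonempty)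
    (a : ∀ b, ∀ y ∈ O, SB.Cut ∞ (M b) y) : ∃ O', Sub O' O ∧ ∀ b, Sm (M b) O' := by
  obtain ⟨O₁, s₁, m₁⟩ := sm_of_cut hO hne (a false)
  obtain ⟨O₂, s₂, m₂⟩ := sm_of_cut s₁.opn s₁.ne fun y hy => a true y (s₁.sub hy)
  exact ⟨O₂, s₂.trans s₁, fun b => by cases b; exacts [m₁.mono s₂.sub, m₂]⟩


lemma Cls.mono (a : Cls om W π P O h) (b : Sub O' O) : Cls om W π P O' h :=
  ⟨b.trans a.sub, a.sm.mono b.sub, fun z hz => a.lie z (b.sub hz), fun z hz => a.sp z (b.sub hz),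
    fun z hz => a.tr0 z (b.sub hz), fun g hg z hz h1 h2 => a.eqv g hg z hz (b.sub h1) (b.sub h2),
    fun g hg z hz => a.log g hg z (b.sub hz)⟩

lemma Al.mono (a : Al om W π P O h e) (b : Sub O' O) : Al om W π P O' h e :=
  ⟨a.cls.mono b, a.smA.mono b.sub, a.smJ.mono b.sub, fun z hz => a.mem z (b.sub hz),
    fun z hz => a.cen z (b.sub hz), a.sme.mono b.sub, fun z hz => a.ej z (b.sub hz)⟩

lemma Eqv.mono (a : Eqv P O Y) (b : O' ⊆ O) : Eqv P O' Y :=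
  fun g hg z hz h1 h2 => a g hg z hz (b h1) (b h2)

lemma Pr0.mono (a : Pr0 om π P O h Y) (b : O' ⊆ O) : Pr0 om π P O' h Y :=
  ⟨fun c => (a.sm c).mono b, fun c z hz => a.le c z (b hz), fun c z hz => a.iso c z (b hz),
    a.eqv.mono b, fun c z hz => a.inv c z (b hz), fun c z hz => a.kil c z (b hz)⟩

lemma Pj2.mono (a : Pj2 O Y p) (b : O' ⊆ O) : Pj2 O' Y p :=
  fun c => ⟨(a c).1.mono b, fun z hz => (a c).2 z (b hz)⟩

lemma exists_pj2 (a : ∀ b, Sm (Y b) O) : ∃ p, Pj2 O Y p := by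
  choose p h1 h2 using a
  exact ⟨p, fun b => ⟨h1 b, h2 b⟩⟩

/-! ### projectors and signs -/

lemma pr_true (q : E →L[ℝ] E) : pr q true = 1 - q := rfl

lemma pr_add (q : E →L[ℝ] E) (b : Bool) (v : E) : pr q b v + pr q (!b) v = v := by
  cases b <;> simp [pr]

lemma pr_idem {q : E →L[ℝ] E} (hq : q * q = q) (b : Bool) : pr q b * pr q b = pr q b := by
  cases b
  · exact hq
  · simp [pr, sub_mul, mul_sub, hq]

lemma pr_mem {A : Subalgebra ℝ (E →L[ℝ] E)} {q : E →L[ℝ] E} (hq : q ∈ A) (b : Bool) :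
    pr q b ∈ A := by
  cases b
  exacts [hq, A.sub_mem A.one_mem hq]

lemma sg_ne (b : Bool) : sg b ≠ 0 := by cases b <;> simp [sg]


lemma not_xor' (b s : Bool) : xor (!b) s = !(xor b s) := by cases b <;> cases s <;> rfl

lemma PG.pr_eqv (G : PG om W π P) {g : Mv E} (hg : g ∈ P) {z : E} (hz : z ∈ g.U) (h1 : z ∈ W)
    (h2 : g.f z ∈ W) (b : Bool) (v : E) :
    pr (π (g.f z)) (xor b g.s) (g.L z v) = g.L z (pr (π z) b v) := by
  have := G.eqv g hg z hz h1 h2 v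
  cases b
  · rw [Bool.false_xor]; exact this
  · have e := pr_add (π (g.f z)) g.s (g.L z v)
    rw [this] at e
    rw [Bool.true_xor, eq_sub_of_add_eq' e, ← map_sub]
    rfl

/-! ### envelope and radical -/

lemma inv_env {h : Submodule ℝ (E →L[ℝ] E)} {N : Submodule ℝ E} (a : Inv h N) : Inv (env h) N :=
  fun x hx => Algebra.adjoin_induction (p := fun (x : E →L[ℝ] E) _ => ∀ v ∈ N, x v ∈ N)
    (fun x hx => a x hx)
    (fun r v hv => by simpa [Algebra.algebraMap_eq_smul_one] using N.smul_mem r hv)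
    (fun x y _ _ a b v hv => N.add_mem (a v hv) (b v hv)) (fun x y _ _ a b v hv => a _ (b v hv)) hx


lemma env_cj_le (L : E ≃L[ℝ] E) {h h' : Submodule ℝ (E →L[ℝ] E)}
    (a : ∀ X ∈ h, L.conjContinuousAlgEquiv X ∈ h') :
    ∀ x ∈ env h, L.conjContinuousAlgEquiv x ∈ env h' :=
  fun x hx => Algebra.adjoin_induction (p := fun x _ => L.conjContinuousAlgEquiv x ∈ env h')
    (fun x hx => Algebra.subset_adjoin (a x hx))
    (fun r => by rw [AlgHomClass.commutes]; exact (env h').algebraMap_mem r)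
    (fun x y _ _ a b => by rw [map_add]; exact add_mem a b)
    (fun x y _ _ a b => by rw [map_mul]; exact mul_mem a b) hx

lemma cj_symm (L : E ≃L[ℝ] E) (a : E →L[ℝ] E) :
    L.symm.conjContinuousAlgEquiv (L.conjContinuousAlgEquiv a) = a := by ext v; simp

lemma cj_symm' (L : E ≃L[ℝ] E) (a : E →L[ℝ] E) :
    L.conjContinuousAlgEquiv (L.symm.conjContinuousAlgEquiv a) = a := by ext v; simp

lemma cj_apply (L : E ≃L[ℝ] E) (a : E →L[ℝ] E) (v : E) :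
    L.conjContinuousAlgEquiv a (L v) = L (a v) := by simp

lemma env_cj (L : E ≃L[ℝ] E) {h h' : Submodule ℝ (E →L[ℝ] E)}
    (a : ∀ X, X ∈ h ↔ L.conjContinuousAlgEquiv X ∈ h') (x : E →L[ℝ] E) :
    x ∈ env h ↔ L.conjContinuousAlgEquiv x ∈ env h' :=
  ⟨env_cj_le L (fun X hX => (a X).1 hX) x, fun hx => cj_symm L x ▸
    env_cj_le L.symm (fun X hX => (a _).2 (by rwa [cj_symm'])) _ hx⟩


/-- `a'` is the `ω`-adjoint of `a` -/
def Adj (om : E →L[ℝ] E →L[ℝ] ℝ) (a a' : E →L[ℝ] E) : Prop := ∀ v w, om (a v) w = om v (a' w)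

lemma Adj.symm (sk : ∀ v w, om v w = -om w v) {a a' : E →L[ℝ] E} (H : Adj om a a') :
    Adj om a' a := fun v w => by rw [sk, ← H, ← sk]

lemma Adj.mul {a a' b b' : E →L[ℝ] E} (H : Adj om a a') (H' : Adj om b b') :
    Adj om (a * b) (b' * a') := fun v w => (H _ _).trans (H' _ _)

lemma Adj.tr (sk : ∀ v w, om v w = -om w v) (nd : ∀ v, (∀ w, om v w = 0) → v = 0)
    {a a' : E →L[ℝ] E} (H : Adj om a a') : tr a = tr a' := by
  let Ω : E →ₗ[ℝ] Dual ℝ E := (ContinuousLinearMap.coeLM ℝ) ∘ₗ (om : E →ₗ[ℝ] E →L[ℝ] ℝ)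
  have hi : Function.Injective Ω := (injective_iff_map_eq_zero _).2 fun v hv =>
    nd v fun w => LinearMap.congr_fun hv w
  let Θ := Ω.linearEquivOfInjective hi Subspace.dual_finrank_eq.symm
  have : Θ.conj (a : E →ₗ[ℝ] E) = Dual.transpose (R := ℝ) (a' : E →ₗ[ℝ] E) := by
    refine LinearMap.ext fun φ => ?_
    obtain ⟨v, rfl⟩ := Θ.surjective φ
    rw [LinearEquiv.conj_apply_apply, Θ.symm_apply_apply]
    exact LinearMap.ext fun w => H v w
  rw [Hu.tr, Hu.tr, ← LinearMap.trace_conj' _ Θ, this, LinearMap.trace_transpose']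



/-! ### the orthogonal -/


lemma perp_cut {Y : E → Submodule ℝ E} {z : E} (a : SB.Gen ∞ Y z) :
    SB.Cut ∞ (fun y => perp om (Y y)) z :=
  SB.Cut.ann a (μ := fun _ => om.flip) (SB.Cn.const _) (Eventually.of_forall fun _ _ => Iff.rfl)

lemma perp_sm (hO : IsOpen O) (hne : O.Nonempty) (a : ∀ b, Sm (Y b) O) :
    ∃ O', Sub O' O ∧ ∀ b, Sm (fun z => perp om (Y b z)) O' :=
  sm2_of_cut hO hne fun b y hy => perp_cut ((a b).smAt hO hy).gen

lemma perp_inv {h : Submodule ℝ (E →L[ℝ] E)} {Y : Submodule ℝ E}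
    (sp : ∀ X ∈ h, ∀ v w, om (X v) w + om v (X w) = 0) (a : Inv h Y) : Inv h (perp om Y) :=
  fun X hX v hv y hy => by
    have := sp X hX y v
    rwa [hv _ (a X hX y hy), zero_add] at this

lemma perp_eqv (G : PG om W π P) (a : Eqv P O Y) : Eqv P O fun b z => perp om (Y b z) := by
  intro g hg z hz h1 h2 b v
  refine ⟨fun H y hy => ?_, fun H y hy => ?_⟩
  · obtain ⟨y, rfl⟩ := (g.L z).surjective y
    rw [G.sym g hg z hz, H y ((a g hg z hz h1 h2 b y).2 hy), mul_zero]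
  · have := H _ ((a g hg z hz h1 h2 b y).1 hy)
    rw [G.sym g hg z hz] at this
    exact (mul_eq_zero.1 this).resolve_left (sg_ne _)

/-! ### the flip count -/

theorem flipS : FlipS := by
  intro E _ _ _ om W π P O Y G hO hs he ⟨z₀, hz₀, b₀, hb₀⟩
  obtain ⟨O', s, m, r⟩ := Sub.of_ev hO.opn hz₀
    (((hs false).rank hO.opn hz₀).and ((hs true).rank hO.opn hz₀))
  have r' : ∀ b, ∀ y ∈ O', finrank ℝ (Y b y) = finrank ℝ (Y b z₀) := fun b y hy => by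
    cases b
    exacts [(r y hy).1, (r y hy).2]
  have nz : ∀ b, Y b z₀ ≠ ⊥ → ∀ y ∈ O', Y b y ≠ ⊥ := fun b hb y hy e =>
    hb (Submodule.finrank_eq_zero.1 (by rw [← r' b y hy, e, finrank_bot]))
  obtain ⟨g, hg, gs, z, hz, h1, h2⟩ := G.flip O' (s.trans hO)
  obtain ⟨v, hv, v0⟩ := (Submodule.ne_bot_iff _).1 (nz b₀ hb₀ z h1)
  have h3 := (he g hg z hz (s.sub h1) (s.sub h2) b₀ v).1 hv
  rw [gs, Bool.xor_true] at h3
  have h4 : Y (!b₀) z₀ ≠ ⊥ := fun e => by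
    have : Y (!b₀) (g.f z) = ⊥ := Submodule.finrank_eq_zero.1 (by rw [r' _ _ h2, e, finrank_bot])
    rw [this, Submodule.mem_bot, map_eq_zero_iff _ (g.L z).injective] at h3
    exact v0 h3
  refine ⟨O', s, fun b => nz b ?_⟩
  by_cases e : b = b₀
  · exact e ▸ hb₀
  · rwa [Bool.eq_not_of_ne e]

end Crest.Agent.N221.Hm
end
end

-- ▼ part N221/Hm/Main
section

/-! Row 221, block Hm: the two minimality arguments. -/

set_option autoImplicit false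
set_option linter.unusedSectionVars false
set_option linter.unusedVariables false
set_option maxSynthPendingDepth 3

open Set Filter Topology Module
open scoped ContDiff

noncomputable section

namespace Crest.Agent.N221.Hm

open Hu

variable {E : Type} [NormedAddCommGroup E] [NormedSpace ℝ E] [FiniteDimensional ℝ E]
  {om : E →L[ℝ] E →L[ℝ] ℝ} {W : Set E} {π : E → E →L[ℝ] E} {P : Set (Mv E)}

/-- a member of the class of minimal rank -/
lemma min_cls (H : ∃ O h, Cls om W π P O h) : ∃ O h, Cls om W π P O h ∧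
    ∀ O' h', Sub O' O → Cls om W π P O' h' → ∀ z ∈ O', h' z ≤ h z → h' z = h z := by
  let S : Set (Set E × (E → Submodule ℝ (E →L[ℝ] E)) × E) :=
    {x | Cls om W π P x.1 x.2.1 ∧ x.2.2 ∈ x.1}
  obtain ⟨O, h, c⟩ := H
  obtain ⟨z, hz⟩ := c.sub.ne
  obtain ⟨⟨O, h, z⟩, ⟨c, hz⟩, hm⟩ := SB.exists_min (s := S) ⟨(O, h, z), c, hz⟩
    fun x => finrank ℝ (x.2.1 x.2.2)
  obtain ⟨O₁, s, -, r⟩ := Sub.of_ev c.sub.opn hz (c.sm.rank c.sub.opn hz)
  refine ⟨O₁, h, c.mono s, fun O' h' s' c' y hy le => Submodule.eq_of_le_of_finrank_le le ?_⟩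
  rw [r y (s'.sub hy)]
  exact hm (O', h', y) ⟨c', hy⟩

/-- a nonzero pair of minimal rank -/
lemma min_pair {O : Set E} {h : E → Submodule ℝ (E →L[ℝ] E)}
    (H : ∃ O' Y, Sub O' O ∧ Pr0 om π P O' h Y ∧ ∀ b, ∀ z ∈ O', Y b z ≠ ⊥) :
    ∃ O' Y, Sub O' O ∧ Pr0 om π P O' h Y ∧ (∀ b, ∀ z ∈ O', Y b z ≠ ⊥) ∧
      ∀ O'' K, Sub O'' O' → Pr0 om π P O'' h K → (∀ b, ∀ z ∈ O'', K b z ≠ ⊥) →
        ∀ z ∈ O'', (∀ b, K b z ≤ Y b z) → ∀ b, K b z = Y b z := by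
  let S : Set (Set E × (Bool → E → Submodule ℝ E) × E) :=
    {x | (Sub x.1 O ∧ Pr0 om π P x.1 h x.2.1 ∧ ∀ b, ∀ z ∈ x.1, x.2.1 b z ≠ ⊥) ∧ x.2.2 ∈ x.1}
  obtain ⟨O', Y, c⟩ := H
  obtain ⟨z, hz⟩ := c.1.ne
  obtain ⟨⟨O', Y, z⟩, ⟨⟨s₀, c, nz⟩, hz⟩, hm⟩ := SB.exists_min (s := S) ⟨(O', Y, z), c, hz⟩
    fun x => finrank ℝ (x.2.1 false x.2.2) + finrank ℝ (x.2.1 true x.2.2)
  obtain ⟨O₁, s, -, r⟩ := Sub.of_ev s₀.opn hz
    (((c.sm false).rank s₀.opn hz).and ((c.sm true).rank s₀.opn hz))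
  refine ⟨O₁, Y, s.trans s₀, c.mono s.sub, fun b y hy => nz b y (s.sub hy),
    fun O'' K s' c' nz' y hy le b => Submodule.eq_of_le_of_finrank_le (le b) ?_⟩
  have h1 := hm (O'', K, y) ⟨⟨s'.trans (s.trans s₀), c', nz'⟩, hy⟩
  have h2 := r y (s'.sub hy)
  have h3 := Submodule.finrank_mono (le false)
  have h4 := Submodule.finrank_mono (le true)
  simp only at h1 h2
  cases b <;> omega

theorem hm_of (hA : AlS) (hY : Y0S) (hT : Tau1S) (hS : StabS) (hK : KS) : HmS := by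
  intro E _ _ _ om W π P G H
  obtain ⟨O, h, c, hmin⟩ := min_cls H
  obtain ⟨O₁, e, s₁, a⟩ := hA E om W π P O h G c
  obtain ⟨z₀, hz₀⟩ := s₁.ne
  obtain ⟨O₂, s₂, -, r⟩ := Sub.of_ev s₁.opn hz₀ (a.smJ.rank s₁.opn hz₀)
  by_cases hJ : rad (env (h z₀)) = ⊥
  · refine Or.inl ⟨O₂, s₂.trans a.cls.sub, (a.sme.mono s₂.sub).congr fun z hz => ?_⟩
    have h0 : rad (env (h z)) = ⊥ :=
      Submodule.finrank_eq_zero.1 (by rw [r z hz, hJ, finrank_bot])
    have := a.ej z (s₂.sub hz)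
    rw [h0, Submodule.mem_bot, sub_eq_zero] at this
    exact this.symm
  right
  have a₂ := a.mono s₂
  obtain ⟨O₃, Y, s₃, y, nz⟩ := hY E om W π P O₂ h e G a₂ fun z hz e =>
    hJ (Submodule.finrank_eq_zero.1 (by rw [← r z hz, e, finrank_bot]))
  obtain ⟨O₄, s₄, nz⟩ := flipS E om W π P O₃ Y G (s₃.trans a₂.cls.sub) y.sm y.eqv nz
  obtain ⟨O₅, Y, s₅, y, nz, ymin⟩ := min_pair ⟨O₄, Y, s₄.trans s₃, y.mono s₄.sub, nz⟩
  obtain ⟨p, hp⟩ := exists_pj2 y.sm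
  have a₅ := a₂.mono s₅
  obtain ⟨O₆, h', s₆, c', hh⟩ := hS E om W π P O₅ h Y p G a₅.cls y hp
  have ti : ∀ z ∈ O₆, ∀ X ∈ h z, TI om Y p z X := fun z hz X hX => by
    have := hmin O₆ h' (s₆.trans (s₅.trans (s₂.trans s₁))) c' z hz fun X hX => ((hh z hz X).1 hX).1
    exact ((hh z hz X).1 (this.ge hX)).2
  have a₆ := a₅.mono s₆
  obtain ⟨O₇, K, s₇, k, nk, hk⟩ := hK E om W π P O₆ h e Y p G a₆ (y.mono s₆.sub)
    (fun b z hz => nz b z (s₆.sub hz)) (hp.mono s₆.sub) ti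
  obtain ⟨O₈, s₈, nk⟩ := flipS E om W π P O₇ K G (s₇.trans a₆.cls.sub) k.sm k.eqv nk
  have s := s₈.trans (s₇.trans s₆)
  have y₈ := y.mono s.sub
  refine ⟨O₈, Y, s.trans a₅.cls.sub, y₈.sm, fun b z hz => nz b z (s.sub hz), y₈.le, y₈.iso, y₈.eqv,
    fun b z hz X hX hs u hu w hw => ?_⟩
  have h1 := (hT E om O₅ (Y (!b)) (p (!b)) s₅.opn (hp _).1 (hp _).2).2 z (s.sub hz) X hX hs u
    (fun v hv => by rw [G.skew, y₈.iso b z hz u hu v hv, neg_zero]) w hw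
  rwa [(hk z (s₈.sub hz)).2 (ymin O₈ K s (k.mono s₈.sub) nk z hz (hk z (s₈.sub hz)).1) b u hu w hw _
    hs.self_of_nhds, sub_eq_zero] at h1

end Crest.Agent.N221.Hm
end
end

-- ▼ part N221/Hm/K

/-! Row 221, block Hm: the sub-pair `K`. -/

set_option autoImplicit false
set_option linter.unusedSectionVars false
set_option linter.unusedVariables false
set_option maxSynthPendingDepth 3

open Set Filter Topology Module
open scoped ContDiff

noncomputable section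

namespace Crest.Agent.N221.Hm

open Hu

variable {E : Type} [NormedAddCommGroup E] [NormedSpace ℝ E] [FiniteDimensional ℝ E]

namespace KP

/-- exchange of the two last slots -/
def fl : (E →L[ℝ] E →L[ℝ] ℝ) →L[ℝ] (E →L[ℝ] E →L[ℝ] ℝ) :=
  ((ContinuousLinearMap.flipₗᵢ ℝ E E ℝ).toContinuousLinearEquiv : _ →L[ℝ] _)

/-- exchange of the first and the last slot -/
def sw (t : E →L[ℝ] E →L[ℝ] E →L[ℝ] ℝ) : E →L[ℝ] E →L[ℝ] E →L[ℝ] ℝ := fl ∘L (fl ∘L t).flip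

lemma sw_apply (t : E →L[ℝ] E →L[ℝ] E →L[ℝ] ℝ) (u v w : E) : sw t u v w = t w v u := rfl

lemma tinv_sw {t : E →L[ℝ] E →L[ℝ] E →L[ℝ] ℝ} {A B C : Submodule ℝ E} {X : E →L[ℝ] E}
    (h : TInv t A B C X) : TInv (sw t) C B A X := fun u hu v hv w hw => by
  have := h w hw v hv u hu
  simp only [sw_apply]
  linarith

/-- left kernel of `t` on `B × C` -/
def an (t : E →L[ℝ] E →L[ℝ] E →L[ℝ] ℝ) (B C : Submodule ℝ E) : Submodule ℝ E where
  carrier := {u | ∀ v ∈ B, ∀ w ∈ C, t u v w = 0}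
  add_mem' := fun h h' v hv w hw => by simp [h v hv w hw, h' v hv w hw]
  zero_mem' := fun v _ w _ => by simp
  smul_mem' := fun c u h v hv w hw => by simp [h v hv w hw]

lemma an_inv {t : E →L[ℝ] E →L[ℝ] E →L[ℝ] ℝ} {A N B C : Submodule ℝ E} {X : E →L[ℝ] E}
    (h : TInv t A N C X) (le : B ≤ N) (hB : ∀ v ∈ B, X v ∈ B) (hC : ∀ v ∈ C, X v ∈ C) {u : E}
    (hu : u ∈ A) (h0 : u ∈ an t B C) : X u ∈ an t B C := fun v hv w hw => by
  have := h u hu v (le hv) w hw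
  rwa [h0 _ (hB v hv) w hw, h0 v hv _ (hC w hw), add_zero, add_zero] at this

lemma an_cj {t t' : E →L[ℝ] E →L[ℝ] E →L[ℝ] ℝ} {B C B' C' : Submodule ℝ E} (L : E ≃L[ℝ] E)
    {c : ℝ} (hc : c ≠ 0) {u : E} (hB : ∀ v, v ∈ B ↔ L v ∈ B') (hC : ∀ v, v ∈ C ↔ L v ∈ C')
    (ht : ∀ v ∈ B, ∀ w ∈ C, t' (L u) (L v) (L w) = c * t u v w) :
    u ∈ an t B C ↔ L u ∈ an t' B' C' := by
  refine ⟨fun H v hv w hw => ?_, fun H v hv w hw => ?_⟩
  · obtain ⟨v, rfl⟩ := L.surjective v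
    obtain ⟨w, rfl⟩ := L.surjective w
    rw [ht v ((hB v).2 hv) w ((hC w).2 hw), H v ((hB v).2 hv) w ((hC w).2 hw), mul_zero]
  · have := H _ ((hB v).1 hv) _ ((hC w).1 hw)
    rw [ht v hv w hw] at this
    exact (mul_eq_zero.1 this).resolve_left hc

variable {A A' : Subalgebra ℝ (E →L[ℝ] E)} {q q' : E →L[ℝ] E} {N N' : Submodule ℝ E}

lemma gen_le (hq : q ∈ A) (hN : Inv A N) : gen A q N ≤ N := by
  refine Submodule.span_le.2 ?_
  rintro _ ⟨a, ha, _, ⟨v, hv, rfl⟩, rfl⟩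
  exact hN a ha _ (hN q hq v hv)

lemma gen_inv {X : E →L[ℝ] E} (hX : X ∈ A) : ∀ v ∈ gen A q N, X v ∈ gen A q N := by
  refine fun v hv => (Submodule.span_le (p := (gen A q N).comap (X : E →ₗ[ℝ] E))).2 ?_ hv
  rintro _ ⟨a, ha, v, hv, rfl⟩
  exact Submodule.subset_span ⟨X * a, A.mul_mem hX ha, v, hv, rfl⟩

lemma mem_gen {v : E} (hv : v ∈ N) : q v ∈ gen A q N :=
  Submodule.subset_span ⟨1, A.one_mem, _, ⟨v, hv, rfl⟩, rfl⟩

lemma gen_cj_le (L : E ≃L[ℝ] E) (hA : ∀ a ∈ A, L.conjContinuousAlgEquiv a ∈ A')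
    (hq : ∀ v, q' (L v) = L (q v)) (hN : ∀ v ∈ N, L v ∈ N') :
    ∀ v ∈ gen A q N, L v ∈ gen A' q' N' := by
  refine fun v hv => (Submodule.span_le
    (p := (gen A' q' N').comap ((L : E →L[ℝ] E) : E →ₗ[ℝ] E))).2 ?_ hv
  rintro _ ⟨a, ha, _, ⟨v, hv, rfl⟩, rfl⟩
  refine Submodule.subset_span ⟨_, hA a ha, _, ⟨L v, hN v hv, rfl⟩, ?_⟩
  exact (congrArg _ (hq v)).trans (cj_apply L a _)

lemma gen_cj (L : E ≃L[ℝ] E) (hA : ∀ a, a ∈ A ↔ L.conjContinuousAlgEquiv a ∈ A')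
    (hq : ∀ v, q' (L v) = L (q v)) (hN : ∀ v, v ∈ N ↔ L v ∈ N') (v : E) :
    v ∈ gen A q N ↔ L v ∈ gen A' q' N' := by
  refine ⟨gen_cj_le L (fun a ha => (hA a).1 ha) hq (fun v hv => (hN v).1 hv) v, fun hv => ?_⟩
  have := gen_cj_le (q' := q) (N' := N) (A' := A) L.symm (fun a ha => (hA _).2 (by rwa [cj_symm']))
    (fun v => L.injective (by rw [← hq]; simp)) (fun v hv => (hN _).2 (by simpa using hv)) _ hv
  simpa using this

lemma an_cut {t : E → E →L[ℝ] E →L[ℝ] E →L[ℝ] ℝ} {B C : E → Submodule ℝ E} {z : E}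
    (hB : SB.Gen ∞ B z) (hC : SB.Gen ∞ C z) (ht : ∀ u v w, SB.Cn ∞ (fun x => t x u v w) z) :
    SB.Cut ∞ (fun x => an (t x) (B x) (C x)) z :=
  SB.Cut.ann₂ hB hC ht (Eventually.of_forall fun _ _ => Iff.rfl)

lemma cn3 {t : E → E →L[ℝ] E →L[ℝ] E →L[ℝ] ℝ} {z : E} (ht : SB.Cn ∞ t z) (u v w : E) :
    SB.Cn ∞ (fun x => t x u v w) z :=
  ((ht.apply (SB.Cn.const u)).apply (SB.Cn.const v)).apply (SB.Cn.const w)

/-- `A · pr c · (Y b)^ω` -/
def SS (om : E →L[ℝ] E →L[ℝ] ℝ) (π : E → E →L[ℝ] E) (h : E → Submodule ℝ (E →L[ℝ] E))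
    (Y : Bool → E → Submodule ℝ E) (c b : Bool) (z : E) : Submodule ℝ E :=
  gen (env (h z)) (pr (π z) c) (perp om (Y b z))

/-- the sub-pair -/
def KK (om : E →L[ℝ] E →L[ℝ] ℝ) (π : E → E →L[ℝ] E) (h : E → Submodule ℝ (E →L[ℝ] E))
    (Y : Bool → E → Submodule ℝ E) (p : Bool → E → E →L[ℝ] E) (b : Bool) (z : E) : Submodule ℝ E :=
  Y b z ⊓ (an (tau om (p (!b)) z) (SS om π h Y (!b) (!b) z) (Y (!b) z) ⊓
    an (sw (tau om (p b) z)) (SS om π h Y (!b) b z) (Y (!b) z))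

end KP

open KP

theorem kS (hL : LogS) (hM : MS) (hLY : LYS) (h1 : Tau1S) (h2 : Tau2S) : KS := by
  intro E _ _ _ om W π P O h e Y p G a y nz hp ti
  have c := a.cls
  have hO := c.sub.opn
  have iN : ∀ b, ∀ z ∈ O, Inv (h z) (perp om (Y b z)) := fun b z hz =>
    perp_inv (c.sp z hz) (y.inv b z hz)
  have le : ∀ d b, ∀ z ∈ O, SS om π h Y d b z ≤ perp om (Y b z) := fun d b z hz =>
    gen_le (pr_mem (a.mem z hz) d) (inv_env (iN b z hz))
  have yp : ∀ b, ∀ z ∈ O, Y b z ≤ perp om (Y (!b) z) := fun b z hz u hu v hv => by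
    rw [G.skew, y.iso b z hz u hu v hv, neg_zero]
  have yp' : ∀ b, ∀ z ∈ O, Y (!b) z ≤ perp om (Y b z) := fun b z hz u hu v hv =>
    y.iso b z hz v hv u hu
  have ti' : ∀ z ∈ O, ∀ X ∈ h z, ∀ b,
      TInv (sw (tau om (p b) z)) (Y b z) (perp om (Y b z)) (Y (!b) z) X := fun z hz X hX b => by
    have := tinv_sw (ti z hz X hX (!b))
    rwa [Bool.not_not] at this
  obtain ⟨O₁, s₁, hN⟩ := perp_sm (om := om) hO c.sub.ne y.sm
  have gS : ∀ d b, ∀ z ∈ O₁, SB.Gen ∞ (SS om π h Y d b) z := fun d b z hz => by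
    have he : SB.Cn ∞ (fun x => pr (e x) d) z := by
      cases d
      exacts [SB.Cn.of_on a.sme hO (s₁.sub hz), (SB.Cn.of_on a.sme hO (s₁.sub hz)).one_sub]
    refine (SB.Gen.gen (a.smA.smAt hO (s₁.sub hz)).gen
      (p := fun x => pr (e x) d ^ (finrank ℝ E + 1)) (he.mono fun x hx => hx.pow _)
      ((hN b).smAt s₁.opn hz).gen).congr ?_
    filter_upwards [hO.mem_nhds (s₁.sub hz)] with x hx
    refine hM E _ _ _ _ (pr_mem (a.mem x hx) d) (pr_idem (G.idem x (c.sub.sub hx)) d) ?_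
      (inv_env (iN b x hx))
    cases d
    · exact a.ej x hx
    · rw [pr_true, pr_true, sub_sub_sub_cancel_left, ← neg_sub]
      exact neg_mem (a.ej x hx)
  have sT : ∀ b u v w, ∀ z ∈ O, SB.Cn ∞ (fun x => tau om (p b) x u v w) z := fun b u v w z hz =>
    cn3 (SB.Cn.of_on (h1 E om O (Y b) (p b) hO (hp b).1 (hp b).2).1 hO hz) u v w
  have cK : ∀ b, ∀ z ∈ O₁, SB.Cut ∞ (KK om π h Y p b) z := fun b z hz => by
    have gY := ((y.sm (!b)).smAt hO (s₁.sub hz)).gen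
    have c1 := an_cut (t := tau om (p (!b))) (gS (!b) (!b) z hz) gY
      fun u v w => sT _ u v w z (s₁.sub hz)
    have c2 := an_cut (t := fun x => sw (tau om (p b) x)) (gS (!b) b z hz) gY
      fun u v w => sT b w v u z (s₁.sub hz)
    exact ((y.sm b).smAt hO (s₁.sub hz)).cut.inf (c1.inf c2)
  obtain ⟨O₂, s₂, hK⟩ := sm2_of_cut s₁.opn s₁.ne cK
  have s := s₂.trans s₁
  refine ⟨O₂, KK om π h Y p, s, ⟨hK, fun b z hz v hv => y.le b z (s.sub hz) v hv.1,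
    fun b z hz u hu v hv => y.iso b z (s.sub hz) u hu.1 v hv.1, ?_, fun b z hz X hX u hu => ?_,
    fun b z hz j hj u hu => y.kil b z (s.sub hz) j hj u hu.1⟩, ?_,
    fun z hz => ⟨fun b => inf_le_left, fun hk b u hu v hv w hw => ?_⟩⟩
  · intro g hg z hz m1 m2 b u
    replace m1 := s.sub m1
    replace m2 := s.sub m2
    have eY := y.eqv g hg z hz m1 m2
    have eS : ∀ d b v, v ∈ SS om π h Y d b z ↔
        g.L z v ∈ SS om π h Y (xor d g.s) (xor b g.s) (g.f z) := fun d b =>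
      gen_cj (g.L z) (env_cj _ (c.eqv g hg z hz m1 m2))
        (G.pr_eqv hg hz (c.sub.sub m1) (c.sub.sub m2) d) (perp_eqv G y.eqv g hg z hz m1 m2 b)
    have eT := h2 E om W π P O Y p G hO y.eqv hp g hg z hz m1 m2
    rw [KK, KK, ← not_xor']
    refine ⟨fun H => ⟨(eY b u).1 H.1, ?_⟩, fun H => ⟨(eY b u).2 H.1, ?_⟩⟩
    · exact (and_congr (an_cj _ (sg_ne g.s) (eS _ _) (eY _) fun v hv w hw =>
        eT _ u (yp b z m1 H.1) v (le _ _ z m1 hv) w hw) (an_cj _ (sg_ne g.s) (eS _ _) (eY _)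
          fun v hv w hw => eT _ w (yp' b z m1 hw) v (le _ _ z m1 hv) u H.1)).1 H.2
    · have hu := (eY b u).2 H.1
      exact (and_congr (an_cj _ (sg_ne g.s) (eS _ _) (eY _) fun v hv w hw =>
        eT _ u (yp b z m1 hu) v (le _ _ z m1 hv) w hw) (an_cj _ (sg_ne g.s) (eS _ _) (eY _)
          fun v hv w hw => eT _ w (yp' b z m1 hw) v (le _ _ z m1 hv) u hu)).2 H.2
  · replace hz := s.sub hz
    have hX' : X ∈ env (h z) := Algebra.subset_adjoin hX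
    exact ⟨y.inv b z hz X hX u hu.1, an_inv (ti z hz X hX b) (le _ _ z hz) (gen_inv hX')
      (y.inv _ z hz X hX) hu.1 hu.2.1, an_inv (ti' z hz X hX b) (le _ _ z hz) (gen_inv hX')
      (y.inv _ z hz X hX) hu.1 hu.2.2⟩
  · obtain ⟨g, hg, z, hz₂, pe⟩ := G.per O₂ (s.trans c.sub)
    have hz := s.sub hz₂
    have zW := c.sub.sub hz
    obtain ⟨D, hD, dg⟩ := hL E (g.L z) (π z) (G.idem z zW) (fun v => by
      have := G.eqv g hg z pe.mem zW (pe.fix.symm ▸ zW) v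
      rwa [pe.fix, pe.s] at this) pe.hyb
    rcases hLY E (h z) D (π z) (Y false z) (Y true z) _ _ (tau om (p true) z)
      (sw (tau om (p false) z)) ⟨c.lie z hz, c.log g hg z hz pe D hD, dg, c.tr0 z hz⟩
      (y.inv _ z hz) (y.inv _ z hz) (iN true z hz) (iN false z hz) (nz _ z hz) (nz _ z hz)
      (y.le false z hz) (fun w hw => by simpa [pr] using y.le true z hz w hw)
      (fun j hj => ⟨y.kil _ z hz j hj, y.kil _ z hz j hj⟩)
      (fun X hX => ⟨ti z hz X hX false, ti' z hz X hX false⟩) with ⟨u, hu, u0, H, H'⟩ | ⟨u, hu, u0, H, H'⟩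
    · exact ⟨z, hz₂, false, (Submodule.ne_bot_iff _).2 ⟨u, ⟨hu, H, H'⟩, u0⟩⟩
    · exact ⟨z, hz₂, true, (Submodule.ne_bot_iff _).2
        ⟨u, ⟨hu, fun v hv w hw => H' w hw v hv, fun v hv w hw => H w hw v hv⟩, u0⟩⟩
  · have k1 := ((hk b).ge hu).2.1 _ (mem_gen hv) w hw
    have k2 := ((hk (!b)).ge hw).2.2
    rw [Bool.not_not] at k2
    have k3 : tau om (p (!b)) z u (pr (π z) b v) w = 0 := k2 _ (mem_gen hv) u hu
    rw [← pr_add (π z) b v, map_add, ContinuousLinearMap.add_apply, k3, zero_add]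
    exact k1

end Crest.Agent.N221.Hm
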